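import Vale.Agent.P277W59.Kit
import Vale.Agent.P277Z.Fin.Cls

/-!
# P277W: the assembly
-/

open scoped Topology
open Vale.Agent.P272.K Vale.Agent.P285.H281.FD Vale.Agent.P277 Vale.Agent.P277Z.St Set Filter
open Function Vale.Agent.P277Z

noncomputable section

namespace Vale.Agent.P277W

theorem stSmall : StSmall :=
  St.small_of Glc.ghRes0 Fn.dom Pj.rap Pj.prjs (Pj.F.remg C1.fts) Pj.prjc

theorem main (H : Bas) (nrm : NRM) (glc : GLC) (amp : AMP) (kah : KAH) (nef : NEF)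
    (pic : PIC)
    (X Z : ℕ → CSp) (f : ∀ i, (X i).pt → (Z i).pt) (f' : ∀ i, (X (i + 1)).pt → (Z i).pt)
    (G : GPair (X 0)) (B M : ∀ i, Div (X i)) (hG : G.Glc (M 0)) : ¬ Flips X Z f f' G B M := by
  intro h
  have hX : ∀ i, IsNormal 4 (X i) := fun i => (nrm _ (h.four i).1).1
  have hZ : ∀ i, IsNormal 4 (Z i) := fun i => (nrm _ (h.four i).2).1
  have hn := (nrm _ G.four).1
  have := (hX 0).sing.nonempty
  have hs : ∀ i, ∃ A, IsSmall (X i) (Z i) (f i) A ∧ IsSmall (X (i + 1)) (Z i) (f' i) A := fun i =>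
    let ⟨⟨P, a, b⟩, P', a', b'⟩ := h.proj i
    (stSmall _ _ _ _ _ P P' (hX i) (hZ i) (hX _) (h.small i).1 (h.small i).2 a b a' b').1
  obtain ⟨s, e, q₀, P, hF, hB⟩ := H.fam G (hX 0) hn
  choose ψ hψ hu using fun i => H.str (hX i) (hZ i) (hX (i + 1)) (h.small i).1 (h.small i).2
  let q : ∀ i, Fin s → PD (X i) := fun i => Nat.rec q₀ (fun i r t => ψ i (r t)) i
  have q1 : ∀ i t, Str f f' i (q₀ t) (q i t) := fun i t =>
    Nat.rec rfl (fun i r => ⟨_, r, hψ i _⟩) i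
  have q2 : ∀ i, Injective (q i) := fun i => Nat.rec hF.qi (fun i r t t' k => r
    ((H.str (hX (i + 1)) (hZ i) (hX i) (h.small i).2 (h.small i).1 (q (i + 1) t)).unique
      (hψ i _).symm (k ▸ (hψ i _).symm))) i
  have back : ∀ i (D : PD (X i)), ∃ D₀, Str f f' i D₀ D := fun i => Nat.rec (fun D => ⟨D, rfl⟩)
    (fun i r D => by
      obtain ⟨D', a, -⟩ := H.str (hX (i + 1)) (hZ i) (hX i) (h.small i).2 (h.small i).1 D
      obtain ⟨D₀, b⟩ := r D'
      exact ⟨D₀, D', b, a.symm⟩) i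
  have uq : ∀ i t (D : PD (X i)), Str f f' i (q₀ t) D → D = q i t := fun i t => Nat.rec
    (fun D a => Eq.symm a) (fun i r D ⟨D', a, b⟩ => hu i (q i t) D (by rw [← r D' a]; exact b)) i
  have cB : ∀ i D₀ (D : PD (X i)), Str f f' i D₀ D → B i D = G.B D₀ := fun i D₀ => Nat.rec
    (fun D a => by rw [h.start, show D₀ = D from a]) (fun i r D ⟨D', a, b⟩ =>
      (H.coef (hX i) (hZ i) (hX _) (h.small i).1 (h.small i).2 (h.str i) b).trans (r D' a)) i
  have cM : ∀ i D₀ (D : PD (X i)), Str f f' i D₀ D → ∀ P : PD G.X', G.π '' P.1 = D₀.1 →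
      M i D = ∑ j, G.μ j * (G.M j).D P / (G.M j).r := fun i D₀ D a P b =>
    H.trc (hX 0) (hX i) hn (h.trace i) (fun S k => chn_a hs S k i) (chn_b hs D₀ i D a) b
  let G' := hF.gp hn (kah _ G.kah) fun j => nef _ _ G.kah (G.nef j)
  have d1 : ∀ i t, (B i + M i) (q i t) = G'.d t := fun i t => by
    rw [Finsupp.add_apply, cB i _ _ (q1 i t), cM i _ _ (q1 i t) _ (hF.str t)]
    rfl
  have d2 : ∀ i, ↑(B i + M i).support ⊆ range (q i) := fun i D hD => by_contra fun k => by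
    obtain ⟨D₀, a⟩ := back i D
    obtain ⟨A, hπ⟩ := G.bim
    obtain ⟨P₀, b⟩ := H.up hn (hX 0) hπ D₀
    have k1 : D₀ ∉ range q₀ := by
      rintro ⟨t, rfl⟩
      exact k ⟨t, (uq i t D a).symm⟩
    have k2 : P₀ ∉ range P := by
      rintro ⟨t | u, rfl⟩
      · exact k1 ⟨t, Subtype.ext ((hF.str t).symm.trans b)⟩
      · exact D₀.2.dim' (b ▸ hF.exc u)
    refine Finsupp.mem_support_iff.1 hD ?_
    rw [Finsupp.add_apply, cB i _ _ a, cM i _ _ a _ b,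
      Finsupp.notMem_support_iff.1 fun c => k1 (hB c), zero_add]
    refine Finset.sum_eq_zero fun j _ => ?_
    rw [Finsupp.notMem_support_iff.1 fun c => k2 (hF.supp j c)]
    simp
  refine Fn.top Fn.glc X Z f f' s (fun i t => (q i t).1) G' (nrm _ (h.four 0).1).2 hX
    (fun i => kah _ (h.kah i).1) (fun i t => (q i t).2)
    (fun i => Subtype.val_injective.comp (q2 i))
    (glc _ G s e q₀ P hF _ _ _ (M 0) (hX 0) (h.start ▸ d2 0) (h.start ▸ d1 0) hG) fun i =>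
    ⟨hZ i, kah _ (h.kah i).2, (h.small i).1, (h.small i).2, fun t => hψ i _,
      amp _ _ _ _ _ s (q i) _ (q2 i) ?_ (fun t => ?_) (pic _ _ _ _ _ (h.four _).1.ne (h.neg i)),
      amp _ _ _ _ _ s (q (i + 1)) _ (q2 (i + 1)) (d2 (i + 1)) (d1 (i + 1))
        (pic _ _ _ _ _ (h.four _).1.ne (h.pos i))⟩
  · rw [Finsupp.support_neg]
    exact d2 i
  · rw [Finsupp.neg_apply, d1]
    rfl

theorem pulls (H : Bas) (nrm : NRM) (exp : EXP) (exd : EXD) (W X : CSp) (p : W.pt → X.pt)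
    (hX : Four X) (h : Resol W X p) : (∀ C : QCart X, ∃! Γ : Div W, ∀ E, C.Pull p E (Γ E)) ∧
      ∀ F : QF X, ∃! Γ : Div W, ∀ E, F.Disc p E (Γ E) :=
  have hN := (nrm X hX).1
  let ⟨A, a⟩ := h.2
  ⟨fun C => exp W X p A C (H.res hN h) hN a, fun F => exd W X p A F h.1 (H.res hN h) hN a⟩

theorem trace (H : Bas) (nrm : NRM) (exp : EXP) (X : CSp) (G : GPair X) (h : Four X) :
    ∃! N, G.Trace X Eq N := by
  have hX := (nrm X h).1
  have hn := (nrm _ G.four).1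
  have := h.ne
  obtain ⟨A, hπ⟩ := G.bim
  obtain ⟨P, a, b⟩ := G.proj
  obtain ⟨V₀, p₀, r₀, -⟩ := Glc.ghRes0 X hX
  obtain ⟨V, π, q, -, exc, -, -, r, -, e, -, hq⟩ := Fn.dom X G.X' G.π A P hX hn hπ a b V₀ p₀ _ r₀
  have hp := Fst.isBim_lift (g := id) (q := fun y => p₀ (π y)) r (Fst.holMap r) r.surj
    fun x => ⟨continuousAt_id, fun _ k => k⟩
  have hq' : Resol V.X G.X' q := ⟨lg_reg, _, hq⟩
  choose Γ hΓ _ using fun j => exp V.X G.X' q _ (G.M j) (H.res hn hq') hn hq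
  refine existsUnique_of_exists_of_unique ⟨_, V.X, _, q, Γ, ⟨lg_reg, _, hp⟩, hq', e, hΓ, rfl⟩
    fun N N' k k' => Finsupp.ext fun D => ?_
  obtain ⟨P₀, c⟩ := H.up hn hX hπ D
  have ha : ∀ S, DimLe X 2 S → DimLe X 2 {y | ∃ x ∈ S, x = y} := fun S k =>
    k.mono (by rintro y ⟨x, a, rfl⟩; exact a)
  have hb : ∃ T, DimLe X 2 T ∧ ∀ x y, x = y → y ∉ T → y ∈ D.1 → x ∈ D.1 :=
    ⟨∅, dimLe_empty, by rintro x y rfl - a; exact a⟩
  rw [H.trc hX hX hn k ha hb c, H.trc hX hX hn k' ha hb c]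

end Vale.Agent.P277W
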