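import Vale.Agent.P277W59.Asm
import Vale.Agent.P285WB.Rem

/-!
# P277W: common resolutions, existence of the traces
-/

open scoped Topology
open Vale.Agent.P272.K Vale.Agent.P285.H281.FD Vale.Agent.P277 Vale.Agent.P277Z.St Set Filter
open Function Vale.Agent.P277Z
open Vale.Agent.P277Z.Val (Lg)

noncomputable section

namespace Vale.Agent.P277W

theorem bim_comp {V : Lg} {Y X : CSp} {a : V.W → Y.pt} {b : Y.pt → X.pt} {A₁ : Set Y.pt}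
    {A₂ : Set X.pt} (h₁ : IsBim V.X Y a A₁) (h₂ : IsBim Y X b A₂) :
    IsBim V.X X (fun w => b (a w)) (A₂ ∪ b '' A₁) where
  cont := h₂.cont.comp h₁.cont
  holo w g hg := h₁.holo w _ (h₂.holo _ g hg)
  surj := h₂.surj.comp h₁.surj
  an := Pr.an_union h₂.an (by
    have k := P285WB.remx 4 ⟨V.W⟩ X (fun w => b (a w)) (a ⁻¹' A₁)
      ⟨h₂.cont.comp h₁.cont, fun w g hg => h₁.holo w _ (h₂.holo _ g hg)⟩
      fun w => h₁.an.preimage (bim_hol h₁) w trivial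
    rwa [← image_image b a, image_preimage_eq (f := a) A₁ h₁.surj] at k)
  dense := by
    have k : Dense A₁ᶜ := (h₁.surj.denseRange.dense_image h₁.cont h₁.dense).mono (by
      rintro _ ⟨w, hw, rfl⟩
      exact hw)
    refine (Fst.bim_dense h₁ (h₂.dense.inter_of_isOpen_right k
      (isClosed_of_isAn h₁.an).isOpen_compl)).mono ?_
    rintro w ⟨c, d⟩ (e | ⟨y, e, e'⟩)
    · exact c e
    · exact d (h₂.inj _ y c e' ▸ e)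
  inj w w' c e := h₁.inj w w' (fun d => c (.inr ⟨_, d, rfl⟩))
    (h₂.inj _ _ (fun d => c (.inl d)) e)
  iso w g c hg := by
    obtain ⟨h, k1, k2⟩ := h₁.iso w g (fun d => c (.inr ⟨_, d, rfl⟩)) hg
    obtain ⟨k, k3, k4⟩ := h₂.iso _ h (fun d => c (.inl d)) k1
    exact ⟨k, k3, k2.trans (h₁.cont.continuousAt.eventually k4)⟩

theorem proj_comp {V : Lg} {Y X : CSp} {a : V.W → Y.pt} {b : Y.pt → X.pt} {A₁ : Set Y.pt}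
    {A₂ : Set X.pt} (h₁ : IsBim V.X Y a A₁) (h₂ : IsBim Y X b A₂) (k₁ : Proj V.X Y a)
    (k₂ : Proj Y X b) : Proj V.X X fun w => b (a w) := by
  obtain ⟨P, c, d⟩ := k₁
  obtain ⟨Λ, c', d'⟩ := k₂
  obtain ⟨N, hN⟩ := Val.ampC V Y X a b P Λ ⟨h₁.cont, h₁.holo⟩ (bim_hol h₂)
    ⟨c.isOpen, c.cover, fun i j e x he hi hj => (c.holo i j x hi hj e he).contDiffAt, c.ne_zero,
      c.cocycle⟩ c' d d'
  exact ⟨_, Val.RF.lbx_mul c (Glc.lb_pow (Glc.lb_pull c' (bim_hol h₁)) N), hN N le_rfl⟩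

variable {X Z : ℕ → CSp} {f : ∀ i, (X i).pt → (Z i).pt} {f' : ∀ i, (X (i + 1)).pt → (Z i).pt}

/-- a common resolution -/
theorem cres (G : GPair (X 0)) (h0 : IsNormal 4 (X 0)) (hn : IsNormal 4 G.X') : ∀ n,
    (∀ i < n, IsNormal 4 (Z i) ∧ IsNormal 4 (X (i + 1)) ∧ Small (X i) (Z i) (f i) ∧
      Small (X (i + 1)) (Z i) (f' i) ∧ Proj (X i) (Z i) (f i) ∧ Proj (X (i + 1)) (Z i) (f' i)) →
    ∃ (V : Lg) (p : V.W → (X n).pt) (q : V.W → G.X'.pt), (∃ A, IsBim V.X (X n) p A) ∧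
      Proj V.X (X n) p ∧ (∃ A, IsBim V.X G.X' q A) ∧ ∀ w, Rel f f' n (G.π (q w)) (p w)
  | 0, _ => by
    obtain ⟨A, hπ⟩ := G.bim
    obtain ⟨P, a, b⟩ := G.proj
    obtain ⟨V₀, p₀, r₀, -⟩ := Glc.ghRes0 _ h0
    obtain ⟨V, π, q, -, exc, -, -, r, -, e, -, hq⟩ := Fn.dom _ G.X' G.π A P h0 hn hπ a b V₀ p₀ _ r₀
    obtain ⟨L, -, -, c, d, -⟩ := r.amp
    exact ⟨V, _, q, ⟨_, Fst.isBim_lift (g := id) (q := fun y => p₀ (π y)) r (Fst.holMap r) r.surj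
      fun x => ⟨continuousAt_id, fun _ k => k⟩⟩, ⟨L, Val.CompH.lbx c, d⟩, ⟨_, hq⟩, e⟩
  | n + 1, h => by
    obtain ⟨V, p, q, ⟨A, hp⟩, kp, ⟨A', hq⟩, hR⟩ := cres G h0 hn n fun i k => h i (k.trans n.lt_succ_self)
    obtain ⟨hZ, hX, ⟨⟨A₁, b₁⟩, -, -⟩, ⟨⟨A₂, b₂⟩, -, -⟩, k₁, P₂, c₂, d₂⟩ := h n n.lt_succ_self
    obtain ⟨P₁, c₁, d₁⟩ := proj_comp hp b₁ kp k₁
    obtain ⟨z⟩ := hZ.sing.nonempty
    have g := bim_comp hp b₁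
    obtain ⟨V₀, p₀, r₀, -⟩ := Glc.ghRes0 _ hZ
    obtain ⟨V₁, π₁, q₁, -, e₁, -, -, r₁, u₁, v₁, -, w₁⟩ :=
      Fn.dom _ _ _ A₂ P₂ hZ hX b₂ c₂ d₂ V₀ p₀ _ r₀
    obtain ⟨V₂, π₂, q₂, new, e₂, s₂, -, r₂, -, v₂, -, w₂⟩ :=
      Fn.dom _ V.X _ _ P₁ hZ (GH.Dom.normal_X V ⟨(g.surj z).choose⟩) g c₁ d₁ V₁ _ _ r₁
    have e : (fun y => p₀ (π₁ (π₂ y))) = fun y => f' n (q₁ (π₂ y)) := funext fun y => (v₁ _).symm
    rw [e] at r₂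
    obtain ⟨L, -, -, c, d, -⟩ := r₂.amp
    refine ⟨V₂, fun y => q₁ (π₂ y), fun y => q (q₂ y), ⟨_, Fst.isBim_lift r₂ (fun y =>
      ⟨(u₁ _).1.comp (Fst.holMap s₂ y).1, fun k a => (Fst.holMap s₂ y).2 _ ((u₁ _).2 k a)⟩)
      (w₁.surj.comp s₂.surj) (bim_hol b₂)⟩, ⟨L, Val.CompH.lbx c, Glc.SB.relAmple_mid (bim_hol b₂) d⟩,
      ⟨_, bim_comp w₂ hq⟩, fun w => ⟨_, hR _, (v₂ w).trans (v₁ _).symm⟩⟩

theorem chn (H : Bas) (h0 : IsNormal 4 (X 0)) : ∀ n,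
    (∀ i < n, IsNormal 4 (Z i) ∧ IsNormal 4 (X (i + 1)) ∧ Small (X i) (Z i) (f i) ∧
      Small (X (i + 1)) (Z i) (f' i) ∧ Proj (X i) (Z i) (f i) ∧ Proj (X (i + 1)) (Z i) (f' i)) →
    IsNormal 4 (X n) ∧
    (∀ S, DimLe (X 0) 2 S → DimLe (X n) 2 {y | ∃ x ∈ S, Rel f f' n x y}) ∧
    ∀ D : PD (X n), ∃ D₀ : PD (X 0), ∃ T, DimLe (X n) 2 T ∧
      ∀ x y, Rel f f' n x y → y ∉ T → y ∈ D.1 → x ∈ D₀.1
  | 0, _ => ⟨h0, fun S k => k.mono (by rintro y ⟨x, a, rfl⟩; exact a), fun D =>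
      ⟨D, ∅, have := h0.sing.nonempty; dimLe_empty, by rintro x y rfl - a; exact a⟩⟩
  | n + 1, h => by
    obtain ⟨hX, ha, hb⟩ := chn H h0 n fun i k => h i (k.trans n.lt_succ_self)
    obtain ⟨hZ, hX', s, s', ⟨P, a, b⟩, P', a', b'⟩ := h n n.lt_succ_self
    obtain ⟨⟨A, c, c'⟩, -⟩ := stSmall _ _ _ _ _ P P' hX hZ hX' s s' a b a' b'
    refine ⟨hX', fun S k => (pre_dim c' ((ha S k).image fun x _ => c.holMap x)).mono ?_,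
      fun D => ?_⟩
    · rintro y ⟨x, c, y', d, e⟩
      exact .inr ⟨y', ⟨x, c, d⟩, e⟩
    obtain ⟨D', e, -⟩ := H.str hX' hZ hX s' s D
    obtain ⟨D₀, T, t, d⟩ := hb D'
    refine ⟨D₀, _, pre_dim c' (t.image fun x _ => c.holMap x), ?_⟩
    rintro x y ⟨y', k1, k2⟩ k3 k4
    refine d x y' k1 (fun k => k3 (.inr ⟨y', k, k2⟩)) ?_
    obtain ⟨y'', k5, k6⟩ := e.le ⟨y, k4, rfl⟩
    exact c.inj y' y'' (fun k => k3 (.inl (k2 ▸ k))) (k6.trans k2.symm) ▸ k5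

/-- the traces exist and are unique -/
theorem traces (H : Bas) (nrm : NRM) (exp : EXP) (G : GPair (X 0)) (n : ℕ)
    (h1 : ∀ i ≤ n, Four (X i)) (h2 : ∀ i < n, Four (Z i) ∧ Small (X i) (Z i) (f i) ∧
      Small (X (i + 1)) (Z i) (f' i) ∧ Proj (X i) (Z i) (f i) ∧ Proj (X (i + 1)) (Z i) (f' i)) :
    ∃! N, G.Trace (X n) (Rel f f' n) N := by
  have h0 := (nrm _ (h1 0 n.zero_le)).1
  have hn := (nrm _ G.four).1
  have h := fun i (k : i < n) => (⟨(nrm _ (h2 i k).1).1, (nrm _ (h1 _ k)).1, (h2 i k).2⟩ : _ ∧ _ ∧ _)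
  obtain ⟨hX, ha, hb⟩ := chn H h0 n h
  obtain ⟨V, p, q, hp, -, ⟨A', hq⟩, hR⟩ := cres G h0 hn n h
  have hq' : Resol V.X G.X' q := ⟨lg_reg, _, hq⟩
  choose Γ hΓ _ using fun j => exp V.X G.X' q _ (G.M j) (H.res hn hq') hn hq
  refine existsUnique_of_exists_of_unique ⟨_, V.X, p, q, Γ, ⟨lg_reg, hp⟩, hq', hR, hΓ, rfl⟩
    fun N N' k k' => Finsupp.ext fun D => ?_
  obtain ⟨A, hπ⟩ := G.bim
  obtain ⟨D₀, t⟩ := hb D
  obtain ⟨P₀, c⟩ := H.up hn h0 hπ D₀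
  rw [H.trc h0 hX hn k ha t c, H.trc h0 hX hn k' ha t c]

end Vale.Agent.P277W
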