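import Vale.Agent.P277W.Rows
import Mathlib.LinearAlgebra.Basis.VectorSpace

/-!
# P277W: integral relations between line bundles
-/

open scoped Topology
open Vale.Agent.P272.K Vale.Agent.P285.H281.FD Vale.Agent.P277 Vale.Agent.P277Z.St Set Filter
open Function Finsupp

noncomputable section

namespace Vale.Agent.P277W59

open P277W

section alg

variable {α : Type*}

/-- `∏ K ∈ S, u K ^ n K` -/
def pw (S : Finset α) (u : α → ℂ) (n : α →₀ ℤ) : ℂ := ∏ K ∈ S, u K ^ n K

variable {S : Finset α} {u : α → ℂ}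

theorem pw_add (h : ∀ K ∈ S, u K ≠ 0) (n m : α →₀ ℤ) : pw S u (n + m) = pw S u n * pw S u m := by
  rw [pw, pw, pw, ← Finset.prod_mul_distrib]
  exact Finset.prod_congr rfl fun K k => zpow_add₀ (h K k) _ _

theorem pw_neg (n : α →₀ ℤ) : pw S u (-n) = (pw S u n)⁻¹ := by
  rw [pw, pw, ← Finset.prod_inv_distrib]
  exact Finset.prod_congr rfl fun K _ => zpow_neg _ _

theorem pw_single {K : α} (h : K ∈ S) (c : ℤ) : pw S u (single K c) = u K ^ c := by
  classical
  rw [pw, Finset.prod_eq_single_of_mem K h fun L _ e => by rw [single_eq_of_ne e, zpow_zero],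
    single_eq_same]

theorem pw_sum {ι : Type} (h : ∀ K ∈ S, u K ≠ 0) (B : ι → α) (hB : ∀ e, B e ∈ S) (m : ι → ℤ)
    (T : Finset ι) : pw S u (∑ e ∈ T, single (B e) (m e)) = ∏ e ∈ T, u (B e) ^ m e := by
  classical
  induction T using Finset.induction_on with
  | empty => simp [pw]
  | insert a T ha ih => rw [Finset.sum_insert ha, Finset.prod_insert ha, pw_add h, ih,
      pw_single (hB a)]

theorem pw_mono {S' : Finset α} (h : S ⊆ S') {n : α →₀ ℤ} (hn : n.support ⊆ S) :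
    pw S' u n = pw S u n :=
  (Finset.prod_subset h fun K _ k => by rw [notMem_support_iff.1 fun e => k (hn e), zpow_zero]).symm

/-- flatness of the reals -/
theorem flat (T : AddSubgroup (α →₀ ℤ)) {G : Set (α →₀ ℝ)}
    (hG : ∀ v ∈ G, ∃ n ∈ T, ∀ K, v K = n K) {v : α →₀ ℝ} (hv : v ∈ Submodule.span ℝ G) :
    ∀ c : ℝ →ₗ[ℚ] ℚ, ∃ N : ℕ, N ≠ 0 ∧ ∃ n ∈ T, ∀ K, N * c (v K) = n K := by
  induction hv using Submodule.span_induction with
  | mem v h =>
    intro c
    obtain ⟨n, a, b⟩ := hG v h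
    refine ⟨(c 1).den, (c 1).den_nz, (c 1).num • n, T.zsmul_mem a _, fun K => ?_⟩
    have e : c (n K) = n K * c 1 := by
      rw [← smul_eq_mul, ← map_smul]
      simp
    rw [b, e, mul_left_comm, Rat.den_mul_eq_num]
    simp [mul_comm]
  | zero => exact fun c => ⟨1, one_ne_zero, 0, T.zero_mem, by simp⟩
  | add v w _ _ h1 h2 =>
    intro c
    obtain ⟨N, a, n, b, d⟩ := h1 c
    obtain ⟨N', a', n', b', d'⟩ := h2 c
    refine ⟨N * N', mul_ne_zero a a', N' • n + N • n', T.add_mem (T.nsmul_mem b _) (T.nsmul_mem b' _),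
      fun K => ?_⟩
    simp only [Finsupp.add_apply, map_add, Finsupp.smul_apply, nsmul_eq_mul, Int.cast_add,
      Int.cast_mul, Int.cast_natCast, Nat.cast_mul, ← d, ← d']
    ring
  | smul r v _ h => exact fun c => h (c ∘ₗ LinearMap.mulLeft ℚ r)

theorem flat' (T : AddSubgroup (α →₀ ℤ)) {G : Set (α →₀ ℝ)}
    (hG : ∀ v ∈ G, ∃ n ∈ T, ∀ K, v K = n K) {ι : Type} [Fintype ι] (B : ι → α) (ρ : ι → ℝ)
    (hv : ∑ e, single (B e) (ρ e) ∈ Submodule.span ℝ G) :
    ∃ (b : ℕ) (m : Fin b → ι → ℤ) (y : Fin b → ℝ), (∀ β, ∑ e, single (B e) (m β e) ∈ T) ∧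
      ∀ e, ρ e = ∑ β, y β * m β e := by
  classical
  let bb := Module.Basis.ofVectorSpace ℚ ℝ
  let Γ := Finset.univ.biUnion fun e => (bb.repr (ρ e)).support
  choose N h1 n h2 h3 using fun γ => flat T hG hv (bb.coord γ)
  let D := fun γ => ∏ e, (bb.repr (ρ e) γ).den
  have hD : ∀ γ, D γ ≠ 0 := fun γ => Finset.prod_ne_zero_iff.2 fun e _ => Rat.den_nz _
  have h4 : ∀ γ e, ∃ z : ℤ, (z : ℚ) = D γ * bb.repr (ρ e) γ := fun γ e => by
    obtain ⟨t, ht⟩ := Finset.dvd_prod_of_mem (fun e => (bb.repr (ρ e) γ).den) (Finset.mem_univ e)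
    refine ⟨t * (bb.repr (ρ e) γ).num, ?_⟩
    rw [show D γ = _ from ht, Int.cast_mul, ← Rat.den_mul_eq_num]
    push_cast
    ring
  choose z hz using h4
  refine ⟨_, fun β e => N (Γ.equivFin.symm β) * z (Γ.equivFin.symm β) e,
    fun β => bb (Γ.equivFin.symm β) / (N (Γ.equivFin.symm β) * D (Γ.equivFin.symm β)),
    fun β => ?_, fun e => ?_⟩
  · beta_reduce
    generalize (Γ.equivFin.symm β).1 = γ
    convert T.nsmul_mem (h2 γ) (D γ) using 1
    refine Finsupp.ext fun K => Int.cast_injective (α := ℚ) ?_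
    rw [Finsupp.smul_apply, nsmul_eq_mul, Int.cast_mul, ← h3, finsetSum_apply, finsetSum_apply,
      map_sum, Int.cast_sum, Finset.mul_sum, Finset.mul_sum]
    refine Finset.sum_congr rfl fun e _ => ?_
    rw [single_apply, single_apply]
    split_ifs
    · rw [Int.cast_mul, hz, Module.Basis.coord_apply]
      push_cast
      ring
    · simp
  · rw [Γ.equivFin.symm.sum_comp (fun γ => bb γ / (N γ * D γ) * ((N γ * z γ e : ℤ) : ℝ)),
      Finset.sum_coe_sort Γ fun γ => bb γ / (N γ * D γ) * ((N γ * z γ e : ℤ) : ℝ)]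
    conv_lhs => rw [← bb.linearCombination_repr (ρ e), linearCombination_apply,
      sum_of_support_subset _ (Finset.subset_biUnion_of_mem (fun e => (bb.repr (ρ e)).support)
        (Finset.mem_univ e)) (fun i a => a • bb i) fun _ _ => zero_smul _ _]
    refine Finset.sum_congr rfl fun γ _ => ?_
    have a : (N γ : ℝ) ≠ 0 := Nat.cast_ne_zero.2 (h1 γ)
    have b : (D γ : ℝ) ≠ 0 := Nat.cast_ne_zero.2 (hD γ)
    have c : (z γ e : ℝ) = D γ * (bb.repr (ρ e) γ : ℝ) := by exact_mod_cast hz γ e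
    rw [Int.cast_mul, c, Rat.smul_def]
    push_cast
    field_simp

end alg

variable {X : CSp}

/-- a trivialisation -/
def Sec (S : Finset (LB X)) (n : LB X →₀ ℤ) (s : (∀ L : LB X, L.1.ι) → X.pt → ℂ) : Prop :=
  ∀ i x, (∀ L ∈ S, x ∈ L.1.U (i L)) → X.Hol (s i) x ∧ s i x ≠ 0 ∧
    ∀ j, (∀ L ∈ S, x ∈ L.1.U (j L)) → s i x = pw S (fun L => L.1.g (i L) (j L) x) n * s j x

theorem Sec.mono {S S' : Finset (LB X)} {n s} (h : Sec S n s) (k : S ⊆ S') (hn : n.support ⊆ S) :
    Sec S' n s := fun i x a =>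
  let ⟨b, c, d⟩ := h i x fun L e => a L (k e)
  ⟨b, c, fun j e => by rw [pw_mono k hn, d j fun L e' => e L (k e')]⟩

/-- the relations -/
def rels (X : CSp) : AddSubgroup (LB X →₀ ℤ) where
  carrier := {n | ∃ S s, n.support ⊆ S ∧ Sec S n s}
  zero_mem' := ⟨∅, fun _ _ => 1, by simp, fun i x _ =>
    ⟨hol_const 1 x, one_ne_zero, fun _ _ => by simp [pw]⟩⟩
  add_mem' := by
    classical
    rintro n m ⟨S, s, a, b⟩ ⟨S', s', a', b'⟩
    refine ⟨S ∪ S', fun i x => s i x * s' i x, support_add.trans (Finset.union_subset_union a a'),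
      fun i x k => ?_⟩
    obtain ⟨c, d, e⟩ := b.mono Finset.subset_union_left a i x k
    obtain ⟨c', d', e'⟩ := b'.mono Finset.subset_union_right a' i x k
    refine ⟨hol_mul c c', mul_ne_zero d d', fun j t => ?_⟩
    beta_reduce
    rw [pw_add fun L l => L.2.ne_zero _ _ x (k L l) (t L l), e j t, e' j t, mul_mul_mul_comm]
  neg_mem' := by
    rintro n ⟨S, s, a, b⟩
    refine ⟨S, fun i x => (s i x)⁻¹, by rwa [Finsupp.support_neg], fun i x k => ?_⟩
    obtain ⟨c, d, e⟩ := b i x k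
    exact ⟨hol_inv c d, inv_ne_zero d, fun j t => by
      beta_reduce
      rw [pw_neg, e j t, mul_inv]⟩

theorem pw_three {α : Type*} {S : Finset α} {u : α → ℂ} (h : ∀ K ∈ S, u K ≠ 0) {L M N : α}
    (a : L ∈ S) (b : M ∈ S) (c : N ∈ S) :
    pw S u (single L 1 + single M 1 - single N 1) = u L * u M * (u N)⁻¹ := by
  rw [sub_eq_add_neg, pw_add h, pw_add h, pw_neg, pw_single a, pw_single b, pw_single c, zpow_one,
    zpow_one, zpow_one]

theorem ex_three {α : Type*} (L M N : α) : ∃ S : Finset α, L ∈ S ∧ M ∈ S ∧ N ∈ S ∧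
    (single L 1 + single M 1 - single N 1 : α →₀ ℤ).support ⊆ S := by
  classical
  refine ⟨{L, M, N}, by simp, by simp, by simp, fun K k => by_contra fun e => ?_⟩
  simp only [Finset.mem_insert, Finset.mem_singleton, not_or] at e
  simp [single_eq_of_ne e.1, single_eq_of_ne e.2.1, single_eq_of_ne e.2.2] at k

theorem gen_mem {L M N : LB X} (h : HD.IsTriv X ((L.1.mul M.1).mul (Bd.inv N.1))) :
    single L 1 + single M 1 - single N 1 ∈ rels X := by
  obtain ⟨t, h1, h2⟩ := h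
  obtain ⟨S, s1, s2, s3, s4⟩ := ex_three L M N
  suffices H : Sec S (single L 1 + single M 1 - single N 1) fun i => t ((i L, i M), i N) from
    ⟨S, _, s4, H⟩
  intro i x k
  have a : ∀ j : ∀ L : LB X, L.1.ι, (∀ K ∈ S, x ∈ K.1.U (j K)) →
      x ∈ ((L.1.mul M.1).mul (Bd.inv N.1)).U ((j L, j M), j N) := fun j k =>
    ⟨⟨k L s1, k M s2⟩, k N s3⟩
  refine ⟨h1.holo ((i L, i M), i N) x trivial (a i k), h2 ((i L, i M), i N) x (a i k), fun j l => ?_⟩
  rw [pw_three (fun K c => K.2.ne_zero (i K) (j K) x (k K c) (l K c)) s1 s2 s3]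
  exact h1.change ((i L, i M), i N) ((j L, j M), j N) x trivial (a i k) (a j l)

theorem triv {ι : Type} [Fintype ι] (B : ι → LB X) (m : ι → ℤ)
    (h : ∑ e, single (B e) (m e) ∈ rels X) : ∃ t : (∀ e, (B e).1.ι) → X.pt → ℂ,
    ∀ i x, (∀ e, x ∈ (B e).1.U (i e)) → X.Hol (t i) x ∧ t i x ≠ 0 ∧
      ∀ j, (∀ e, x ∈ (B e).1.U (j e)) → t i x = (∏ e, (B e).1.g (i e) (j e) x ^ m e) * t j x := by
  classical
  obtain ⟨S₀, s, a, b⟩ := h
  have h := b.mono (Finset.subset_union_left (s₂ := Finset.univ.image B)) a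
  generalize hS : S₀ ∪ Finset.univ.image B = S at h
  have hB : ∀ e, B e ∈ S := fun e => hS ▸ Finset.mem_union_right _ (by simp)
  choose c hc using fun (x : X.pt) (L : LB X) => L.2.cover x
  have key : ∀ (i j : ∀ e, (B e).1.ι) (k : ∀ e, (B e).1.ι) x, (∀ e, x ∈ (B e).1.U (i e)) →
      (∀ e, x ∈ (B e).1.U (j e)) → (∀ e, x ∈ (B e).1.U (k e)) →
      ∏ e, (B e).1.g (i e) (k e) x ^ m e =
        (∏ e, (B e).1.g (i e) (j e) x ^ m e) * ∏ e, (B e).1.g (j e) (k e) x ^ m e :=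
    fun i j k x p q r => by
      rw [← Finset.prod_mul_distrib]
      exact Finset.prod_congr rfl fun e _ => by
        rw [← mul_zpow, (B e).2.cocycle _ _ _ x (p e) (q e) (r e)]
  refine ⟨fun i y => (∏ e, (B e).1.g (i e) (c y (B e)) y ^ m e) * s (c y) y, fun i x k =>
    ⟨?_, mul_ne_zero (Finset.prod_ne_zero_iff.2 fun e _ => zpow_ne_zero _
      ((B e).2.ne_zero _ _ x (k e) (hc x _))) (h _ x fun L _ => hc x L).2.1, fun j l => ?_⟩⟩
  · refine hol_congr (f := fun y => (∏ e, (B e).1.g (i e) (c x (B e)) y ^ m e) * s (c x) y)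
      (hol_mul (hol_prod _ fun e _ => hol_comp₁ (G := fun z => z ^ m e)
        ((B e).2.holo _ _ x (k e) (hc x _))
        (analyticAt_id.zpow ((B e).2.ne_zero _ _ x (k e) (hc x _))))
        (h _ x fun L _ => hc x L).1) ?_
    filter_upwards [eventually_all.2 fun e => ((B e).2.isOpen _).eventually_mem (k e),
      (eventually_all_finset S).2 fun L _ => (L.2.isOpen _).eventually_mem (hc x L)] with y p q
    rw [(h (c x) y q).2.2 (c y) fun L _ => hc y L,
      pw_sum (fun L l => L.2.ne_zero _ _ y (q L l) (hc y L)) B hB,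
      key i (fun e => c x (B e)) (fun e => c y (B e)) y p (fun e => q _ (hB e)) fun e => hc y _,
      mul_assoc]
  · beta_reduce
    rw [key i j (fun e => c x (B e)) x k l fun e => hc x _, mul_assoc]

theorem pic : PIC := by
  classical
  rintro X Z f κ Δ - ⟨F, a, a0, ha, h⟩
  obtain ⟨q, hq⟩ := Nat.exists_eq_succ_of_ne_zero
    (Finset.card_ne_zero.2 (Finsupp.support_nonempty_iff.2 a0))
  let A : Fin (q + 1) ≃ a.support := (Finset.equivFinOfCardEq hq).symm
  let Q := Δ.support.equivFin.symm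
  let L : Fin (Δ.support.card + 1) → LB X :=
    Fin.cons ⟨F.K, F.can.lb⟩ fun t => ⟨(F.C (Q t)).L, (F.C (Q t)).cart.lb⟩
  let ρ : Fin (Δ.support.card + 1) → ℝ := Fin.cons (κ / F.m) fun t => Δ (Q t) / (F.C (Q t)).r
  obtain ⟨b, m, y, h1, h2⟩ := flat' (rels X) (G := {v | ∃ L M N : LB X,
      HD.IsTriv X ((L.1.mul M.1).mul (Bd.inv N.1)) ∧ v = single L 1 + single M 1 - single N 1}) (by
      rintro _ ⟨L, M, N, k, rfl⟩
      refine ⟨_, gen_mem k, fun K => ?_⟩
      simp only [Finsupp.sub_apply, Finsupp.add_apply, single_apply]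
      split_ifs <;> norm_num)
    (Sum.elim L fun t => (A t).1) (Sum.elim ρ fun t => -a (A t)) (by
      refine Set.mem_of_eq_of_mem ?_ h
      rw [Fintype.sum_sum_type, Fin.sum_univ_succ, sub_eq_add_neg, QF.cl]
      congr 1
      · congr 1
        rw [Finsupp.sum, ← Finset.sum_coe_sort Δ.support, ← Q.sum_comp]
        rfl
      · conv_rhs => rw [← a.sum_single, Finsupp.sum, ← Finset.sum_coe_sort, ← A.sum_comp,
          ← Finset.sum_neg_distrib]
        simp)
  have eL : (Fin.cons F.K fun t => (F.C (Q t)).L : Fin (Δ.support.card + 1) → Bd X.pt) =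
      fun e => (L e).1 := funext (Fin.cases rfl fun _ => rfl)
  refine ⟨F, _, fun t => (Q t).1, Subtype.val_injective.comp Q.injective,
    (Q.surjective.range_comp Subtype.val).trans Subtype.range_coe, q, fun t => (A t).1.1,
    fun t => a (A t), fun t => ⟨(ha _ (A t).2).1, (A t).1.2, (ha _ (A t).2).2⟩, b,
    fun β e => m β (.inl e), fun β t => -m β (.inr t), y, fun β => ?_, fun e => h2 (.inl e),
    fun t => ?_⟩
  · rw [eL]
    obtain ⟨t, ht⟩ := triv _ _ (h1 β)
    have k : ∀ (i : ((HD.Bd.lin (fun e => (L e).1) fun e => m β (.inl e)).mul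
        (Bd.inv (HD.Bd.lin (fun t => (A t).1.1) fun t => -m β (.inr t)))).ι) x,
        x ∈ Bd.U _ i → ∀ e, x ∈ (Sum.elim L (fun t => (A t).1) e).1.U (Sum.rec i.1 i.2 e) :=
      fun i x c => Sum.rec c.1 c.2
    refine ⟨fun i => t (Sum.rec i.1 i.2), ⟨fun i x _ c => (ht _ x (k i x c)).1,
      fun i j x _ c d => ((ht _ x (k i x c)).2.2 _ (k j x d)).trans ?_⟩,
      fun i x c => (ht _ x (k i x c)).2.1⟩
    rw [Fintype.prod_sum_type]
    simp [Bd.mul, Bd.inv, HD.Bd.lin]
  · have := h2 (.inr t)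
    simp only [Sum.elim_inr] at this
    simp only [Int.cast_neg, mul_neg, Finset.sum_neg_distrib, ← this, neg_neg]

end Vale.Agent.P277W59
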