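import Vale.Agent.P277W59.Pre
import Vale.Agent.P277W59.Pic
import Vale.Agent.P277W73b.Exd

/-!
# P277W: the last rows
-/

open Vale.Agent.P277Z

namespace Vale.Agent.P277W

theorem exd' : EXD :=
  P277W73.exd_of Glc.ghRes0 Glc.ghPrin Glc.ghComp GH.fam Pj.rap Pj.prjs (Pj.F.remg C1.fts)
    P277W83.thin

theorem pic' : PIC := P277W59.pic

end Vale.Agent.P277W
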