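import Vale.Agent.P277W59.Cres

/-!
# P277W: the divisor form of the condition on the coefficients
-/

open scoped Topology
open Vale.Agent.P272.K Vale.Agent.P285.H281.FD Vale.Agent.P277 Vale.Agent.P277Z.St Set Filter
open Function Vale.Agent.P277Z

noncomputable section

namespace Vale.Agent.P277W

theorem bim_comp' {W Y X : CSp} {a : W.pt → Y.pt} {b : Y.pt → X.pt} {A₁ : Set Y.pt}
    {A₂ : Set X.pt} (hY : IsNormal 4 Y) (h₁ : IsBim W Y a A₁) (h₂ : IsBim Y X b A₂) :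
    IsBim W X (fun w => b (a w)) (A₂ ∪ b '' A₁) where
  cont := h₂.cont.comp h₁.cont
  holo w g hg := h₁.holo w _ (h₂.holo _ g hg)
  surj := h₂.surj.comp h₁.surj
  an := Pr.an_union h₂.an (by
    obtain ⟨V, r, hr, -⟩ := Glc.ghRes0 Y hY
    have k := P285WB.remx 4 ⟨V.W⟩ X (fun w => b (r w)) (r ⁻¹' A₁)
      ⟨h₂.cont.comp hr.cont, fun w g hg => hr.hol w _ (h₂.holo _ g hg)⟩
      fun w => h₁.an.preimage (X := V.X) (f := r) (Fst.holMap hr) w trivial
    rwa [← image_image b r, image_preimage_eq (f := r) A₁ hr.surj] at k)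
  dense := by
    have k : Dense A₁ᶜ := (h₁.surj.denseRange.dense_image h₁.cont h₁.dense).mono (by
      rintro _ ⟨w, hw, rfl⟩
      exact hw)
    refine (Fst.bim_dense h₁ (h₂.dense.inter_of_isOpen_right k
      (isClosed_of_isAn h₁.an).isOpen_compl)).mono ?_
    rintro w ⟨c, d⟩ (e | ⟨y, e, e'⟩)
    · exact c e
    · exact d (h₂.inj _ y c e' ▸ e)
  inj w w' c e := h₁.inj w w' (fun d => c (.inr ⟨_, d, rfl⟩))
    (h₂.inj _ _ (fun d => c (.inl d)) e)
  iso w g c hg := by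
    obtain ⟨h, k1, k2⟩ := h₁.iso w g (fun d => c (.inr ⟨_, d, rfl⟩)) hg
    obtain ⟨k, k3, k4⟩ := h₂.iso _ h (fun d => c (.inl d)) k1
    exact ⟨k, k3, k2.trans (h₁.cont.continuousAt.eventually k4)⟩

theorem one_coef {ι : Type} {P : ι → ℝ → Prop} (h : ∃! Γ : ι →₀ ℝ, ∀ E, P E (Γ E)) :
    ∃ Γ : ι →₀ ℝ, (∀ E, P E (Γ E)) ∧ ∀ E a, P E a → a = Γ E := by
  classical
  obtain ⟨Γ, h1, h2⟩ := h
  refine ⟨Γ, h1, fun E a k => ?_⟩
  rw [← h2 (Γ.update E a) fun E' => ?_, Finsupp.update_apply, if_pos rfl]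
  rw [Finsupp.update_apply]
  split_ifs with e
  exacts [e ▸ k, h1 E']

theorem gl2 (H : Bas) (exp : EXP) (exd : EXD) {X : CSp} {G : GPair X} {N : Div X}
    (hX : IsNormal 4 X) (hn : IsNormal 4 G.X') (h : G.IsGlc N) : G.Glc N := by
  obtain ⟨F, h⟩ := h
  refine ⟨F, fun W q hq E o a ν ho ha hν => ?_⟩
  have hW := H.res hn hq
  obtain ⟨A₁, b₁⟩ := hq.2
  obtain ⟨A₂, b₂⟩ := G.bim
  have b := bim_comp' hn b₁ b₂
  choose Γ g1 g2 using fun Q => one_coef (exp W X _ _ (F.C Q) hW hX b)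
  obtain ⟨A, a1, a2⟩ := one_coef (exd W X _ _ F hq.1 hW hX b)
  choose M m1 m2 using fun j => one_coef (exp W _ q _ (G.M j) hW hn b₁)
  have k := h W q hq Γ A M g1 a1 m1 E
  rw [Finsupp.sub_apply, Finsupp.sub_apply, Finsupp.sum_apply, Finsupp.finsetSum_apply] at k
  rw [a2 E a ha, Finsupp.sum_congr (g2 := fun Q d => (d • Γ Q) E) fun Q c => by
    rw [g2 Q E _ (ho Q c), Finsupp.smul_apply, smul_eq_mul]]
  simpa only [fun j => m2 j E _ (hν j), Finsupp.smul_apply, smul_eq_mul] using k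

end Vale.Agent.P277W
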