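import Vale.Agent.P277W.Rows

/-!
# P277W: push forward, traces, strict transforms
-/

open scoped Topology
open Vale.Agent.P272.K Vale.Agent.P285.H281.FD Vale.Agent.P277 Vale.Agent.P277Z.St Set Filter
open Function

noncomputable section

namespace Vale.Agent.P277W

variable {X Y : CSp} {f : X.pt → Y.pt} {A : Set Y.pt}

theorem bim_hol (h : IsBim X Y f A) (x : X.pt) : HolMap X Y f x := ⟨h.cont.continuousAt, h.holo x⟩

theorem inj (zb : ZB) (hX : IsNormal 4 X) (hY : IsNormal 4 Y) (h : IsBim X Y f A) {E E' : PD X}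
    (hd : ¬ DimLe Y 2 (f '' E.1)) (e : f '' E'.1 = f '' E.1) : E' = E := by
  obtain ⟨A', h', hA⟩ := zb X Y f A hX hY h
  have key : ∀ E E' : PD X, ¬ DimLe Y 2 (f '' E.1) → f '' E'.1 = f '' E.1 → E.1 ⊆ E'.1 := by
    intro E E' hd e
    refine (E.2.irr E'.1 (f ⁻¹' A') E'.2.an (h'.an.preimage (bim_hol h')) fun x hx => ?_).resolve_right
      fun k => hd (hA.mono (image_subset_iff.2 k))
    refine (em (f x ∈ A')).symm.imp (fun k => ?_) id
    obtain ⟨x', a, b⟩ := e.ge ⟨x, hx, rfl⟩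
    exact h'.inj x x' k b ▸ a
  exact Subtype.ext ((key E' E (e ▸ hd) e.symm).antisymm (key E E' hd e))

theorem push_apply (Γ : Div X) (E : PD X) (D : PD Y) (h : f '' E.1 = D.1)
    (hi : ∀ E' : PD X, f '' E'.1 = f '' E.1 → E' = E) : push Y f Γ D = Γ E := by
  classical
  have h1 : IsPrime Y (f '' E.1) := h ▸ D.2
  obtain rfl : D = ⟨f '' E.1, h1⟩ := Subtype.ext h.symm
  rw [push, Finsupp.sum_apply, Finsupp.sum, Finset.sum_eq_single E]
  · rw [dif_pos h1, Finsupp.single_eq_same]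
  · intro E' _ hne
    split_ifs with h'
    · exact Finsupp.single_eq_of_ne fun e => hne (hi E' (congrArg Subtype.val e).symm)
    · rfl
  · intro hE
    rw [dif_pos h1, Finsupp.notMem_support_iff.1 hE, Finsupp.single_eq_same]

theorem push_bim (zb : ZB) (hX : IsNormal 4 X) (hY : IsNormal 4 Y) (h : IsBim X Y f A) (Γ : Div X)
    (E : PD X) (D : PD Y) (e : f '' E.1 = D.1) : push Y f Γ D = Γ E :=
  push_apply Γ E D e fun _ => inj zb hX hY h (e ▸ D.2.dim')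

theorem eq_of_dim (th : THIN) (hX : IsNormal 4 X) {D D' : PD X} (h : ¬ DimLe X 2 (D.1 ∩ D'.1)) :
    D = D' :=
  Subtype.ext ((by_contra fun k => h (th X _ _ hX D.2 D'.2.an k) : D.1 ⊆ D'.1).antisymm
    (by_contra fun k => h (inter_comm D'.1 D.1 ▸ th X _ _ hX D'.2 D.2.an k)))

/-- the basic rows -/
structure Bas : Prop where
  smo : SMO
  zb : ZB
  img : IMG
  surj : SURJ
  thin : THIN
  ord : ORD

theorem Bas.up (H : Bas) (hX : IsNormal 4 X) (hY : IsNormal 4 Y) (h : IsBim X Y f A) (D : PD Y) :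
    ∃ E : PD X, f '' E.1 = D.1 :=
  let ⟨E, a, b⟩ := H.surj X Y f A D.1 hX hY h D.2
  ⟨⟨E, a⟩, b⟩

theorem Bas.res (H : Bas) (hY : IsNormal 4 Y) (h : Resol X Y f) : IsNormal 4 X := by
  obtain ⟨y⟩ := hY.sing.nonempty
  obtain ⟨h1, A, h2⟩ := h
  exact H.smo X ⟨(h2.surj y).choose⟩ h1

/-- the coefficients of the trace -/
theorem Bas.trc (H : Bas) {G : GPair X} {R : X.pt → Y.pt → Prop} {N : Div Y} (hX : IsNormal 4 X)
    (hY : IsNormal 4 Y) (hn : IsNormal 4 G.X') (hT : G.Trace Y R N)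
    (ha : ∀ S, DimLe X 2 S → DimLe Y 2 {y | ∃ x ∈ S, R x y}) {D₀ : PD X} {D : PD Y}
    (hb : ∃ T, DimLe Y 2 T ∧ ∀ x y, R x y → y ∉ T → y ∈ D.1 → x ∈ D₀.1) {P : PD G.X'}
    (hP : G.π '' P.1 = D₀.1) : N D = ∑ j, G.μ j * (G.M j).D P / (G.M j).r := by
  obtain ⟨W, p, q, Γ, hp, hq, hR, hΓ, rfl⟩ := hT
  have hW := H.res hY hp
  obtain ⟨-, A, hp⟩ := hp
  obtain ⟨-, A', hq⟩ := hq
  obtain ⟨A₀, hπ⟩ := G.bim
  obtain ⟨T, hT, hb⟩ := hb
  obtain ⟨E, hE⟩ := H.up hW hY hp D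
  have k1 : ∀ S, DimLe X 2 (G.π '' (q '' E.1) ∩ S) → (∀ w ∈ E.1, p w ∉ T → G.π (q w) ∈ S) →
      False := fun S a b => D.2.dim' ((hT.union (ha _ a)).mono fun y hy => by
    obtain ⟨w, c, rfl⟩ := hE.ge hy
    exact (em (p w ∈ T)).imp id fun d => ⟨_, ⟨⟨_, ⟨w, c, rfl⟩, rfl⟩, b w c d⟩, hR w⟩)
  have k2 : ¬ DimLe X 2 (G.π '' (q '' E.1)) := fun a =>
    k1 univ (a.mono inter_subset_left) fun _ _ _ => trivial
  have k3 := H.img W _ q _ hW (bim_hol hq) E.2 fun a => k2 (a.image fun x _ => bim_hol hπ x)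
  have k4 := H.img _ X G.π _ hn (bim_hol hπ) k3 k2
  have k5 : (⟨_, k4⟩ : PD X) = D₀ := eq_of_dim H.thin hX fun a =>
    k1 _ a fun w c d => hb _ _ (hR w) d (hE.le ⟨w, c, rfl⟩)
  obtain rfl : P = ⟨_, k3⟩ := inj H.zb hn hX hπ k2 (hP.trans (congrArg Subtype.val k5).symm)
  rw [push_bim H.zb hW hY hp _ E D hE, Finsupp.finsetSum_apply]
  refine Finset.sum_congr rfl fun j _ => ?_
  rw [Finsupp.smul_apply, H.ord W _ q A' _ E _ k3 hW hn hq (hΓ j E), smul_eq_mul, mul_div_assoc]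

theorem Bas.prime (H : Bas) {Z : CSp} {f : X.pt → Z.pt} (hX : IsNormal 4 X) (h : Small X Z f)
    (E : PD X) : IsPrime Z (f '' E.1) :=
  let ⟨_, a⟩ := h.bim
  H.img X Z f _ hX (bim_hol a) E.2 (h.small _ E.2)

/-- the strict transform of a prime divisor -/
theorem Bas.str (H : Bas) {Z X' : CSp} {f : X.pt → Z.pt} {f' : X'.pt → Z.pt} (hX : IsNormal 4 X)
    (hZ : IsNormal 4 Z) (hX' : IsNormal 4 X') (h : Small X Z f) (h' : Small X' Z f') (E : PD X) :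
    ∃! E' : PD X', f '' E.1 = f' '' E'.1 := by
  obtain ⟨A, a⟩ := h'.bim
  obtain ⟨E', e⟩ := H.up hX' hZ a ⟨_, H.prime hX h E⟩
  exact ⟨E', e.symm, fun E'' e' => inj H.zb hX' hZ a (h'.small _ E'.2) (e'.symm.trans e.symm)⟩

theorem Bas.coef (H : Bas) {Z X' : CSp} {f : X.pt → Z.pt} {f' : X'.pt → Z.pt} (hX : IsNormal 4 X)
    (hZ : IsNormal 4 Z) (hX' : IsNormal 4 X') (h : Small X Z f) (h' : Small X' Z f') {B : Div X}
    {B' : Div X'} (e : push Z f B = push Z f' B') {E : PD X} {E' : PD X'}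
    (hE : f '' E.1 = f' '' E'.1) : B' E' = B E := by
  obtain ⟨A, a⟩ := h.bim
  obtain ⟨A', a'⟩ := h'.bim
  rw [← push_bim H.zb hX hZ a B E ⟨_, H.prime hX h E⟩ rfl, e,
    push_bim H.zb hX' hZ a' B' E' _ hE.symm]

/-- the strict transform of a divisor -/
theorem Bas.strD (H : Bas) {Z X' : CSp} {f : X.pt → Z.pt} {f' : X'.pt → Z.pt} (hX : IsNormal 4 X)
    (hZ : IsNormal 4 Z) (hX' : IsNormal 4 X') (h : Small X Z f) (h' : Small X' Z f') (B : Div X) :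
    ∃! B' : Div X', push Z f B = push Z f' B' := by
  choose ψ hψ hu using H.str hX' hZ hX h' h
  have hi : Injective ψ := fun E E' e =>
    (H.str hX hZ hX' h h' (ψ E)).unique (hψ E).symm (e ▸ (hψ E').symm)
  obtain ⟨A, a⟩ := h.bim
  obtain ⟨A', a'⟩ := h'.bim
  refine ⟨B.comapDomain ψ hi.injOn, Finsupp.ext fun D => ?_, fun B' e => Finsupp.ext fun E' =>
    H.coef hX hZ hX' h h' e (hψ E').symm⟩
  obtain ⟨E', e⟩ := H.up hX' hZ a' D
  rw [push_bim H.zb hX' hZ a' _ E' D e, push_bim H.zb hX hZ a B (ψ E') D ((hψ E').symm.trans e)]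
  rfl

/-- adapted families exist -/
theorem Bas.fam (H : Bas) (G : GPair X) (hX : IsNormal 4 X) (hn : IsNormal 4 G.X') :
    ∃ (s e : ℕ) (q : Fin s → PD X) (P : Fin s ⊕ Fin e → PD G.X'), Fam G q P ∧
      ↑G.B.support ⊆ range q := by
  classical
  obtain ⟨A, hπ⟩ := G.bim
  choose φ hφ using H.up hn hX hπ
  have hi : Injective φ := fun Q Q' e => Subtype.ext (by rw [← hφ, e, hφ])
  let T : Finset (PD G.X') := Finset.univ.biUnion fun j => (G.M j).D.support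
  let S : Finset (PD X) := G.B.support ∪ T.preimage φ hi.injOn
  let T' := T.filter fun P => ¬ IsPrime X (G.π '' P.1)
  have i1 : Injective fun t => (S.equivFin.symm t).1 :=
    Subtype.val_injective.comp S.equivFin.symm.injective
  have i2 : Injective fun t => (T'.equivFin.symm t).1 :=
    Subtype.val_injective.comp T'.equivFin.symm.injective
  have n2 : ∀ u, ¬ IsPrime X (G.π '' (T'.equivFin.symm u).1.1) := fun u =>
    (Finset.mem_filter.1 (T'.equivFin.symm u).2).2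
  refine ⟨_, _, fun t => (S.equivFin.symm t).1,
    Sum.elim (fun t => φ (S.equivFin.symm t).1) fun u => (T'.equivFin.symm u).1,
    ⟨i1, (hi.comp i1).sumElim i2 fun t u e => n2 u ?_, fun j P hP => ?_, fun t => hφ _,
      fun u => by_contra fun k => n2 u (H.img _ X _ _ hn (bim_hol hπ) (T'.equivFin.symm u).1.2 k)⟩,
    fun Q hQ => ⟨S.equivFin ⟨Q, Finset.mem_union_left _ hQ⟩, by simp⟩⟩
  · rw [← e, comp_apply, hφ]
    exact (S.equivFin.symm t).1.2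
  have hT : P ∈ T := Finset.mem_biUnion.2 ⟨j, Finset.mem_univ j, hP⟩
  by_cases k : IsPrime X (G.π '' P.1)
  · have e : φ ⟨_, k⟩ = P := inj H.zb hn hX hπ k.dim' (hφ _)
    exact ⟨.inl (S.equivFin ⟨⟨_, k⟩, Finset.mem_union_right _
      (Finset.mem_preimage.2 (e.symm ▸ hT))⟩), by simpa using e⟩
  · exact ⟨.inr (T'.equivFin ⟨P, Finset.mem_filter.2 ⟨hT, k⟩⟩), by simp⟩

section chain

variable {X Z : ℕ → CSp} {f : ∀ i, (X i).pt → (Z i).pt} {f' : ∀ i, (X (i + 1)).pt → (Z i).pt}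

/-- strict transforms along the sequence -/
def Str (f : ∀ i, (X i).pt → (Z i).pt) (f' : ∀ i, (X (i + 1)).pt → (Z i).pt) :
    ∀ i, PD (X 0) → PD (X i) → Prop
  | 0, D, D' => D = D'
  | i + 1, D, D'' => ∃ D', Str f f' i D D' ∧ f i '' D'.1 = f' i '' D''.1

theorem pre_dim {X Z : CSp} {f : X.pt → Z.pt} {A T : Set Z.pt} (h : IsSmall X Z f A)
    (hT : DimLe Z 2 T) : DimLe X 2 (f ⁻¹' (A ∪ T)) :=
  (h.dim.union (h.dimLe_preimage hT)).mono fun x hx =>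
    (em (f x ∈ A)).imp id fun e => ⟨hx.resolve_left e, e⟩

variable (hs : ∀ i, ∃ A, IsSmall (X i) (Z i) (f i) A ∧ IsSmall (X (i + 1)) (Z i) (f' i) A)
include hs

theorem chn_a (S : Set (X 0).pt) (h : DimLe (X 0) 2 S) :
    ∀ i, DimLe (X i) 2 {y | ∃ x ∈ S, Rel f f' i x y}
  | 0 => h.mono (by rintro y ⟨x, a, rfl⟩; exact a)
  | i + 1 => by
    obtain ⟨A, a, b⟩ := hs i
    refine (pre_dim b ((chn_a S h i).image fun x _ => a.holMap x)).mono ?_
    rintro y ⟨x, c, y', d, e⟩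
    exact .inr ⟨y', ⟨x, c, d⟩, e⟩

theorem chn_b [Nonempty (X 0).pt] (D₀ : PD (X 0)) : ∀ i (D : PD (X i)), Str f f' i D₀ D →
    ∃ T, DimLe (X i) 2 T ∧ ∀ x y, Rel f f' i x y → y ∉ T → y ∈ D.1 → x ∈ D₀.1
  | 0, _, rfl => ⟨∅, dimLe_empty, by rintro x y rfl - a; exact a⟩
  | i + 1, D, ⟨D', h, e⟩ => by
    obtain ⟨A, a, b⟩ := hs i
    obtain ⟨T, c, d⟩ := chn_b D₀ i D' h
    refine ⟨_, pre_dim b (c.image fun x _ => a.holMap x), ?_⟩
    rintro x y ⟨y', k1, k2⟩ k3 k4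
    refine d x y' k1 (fun k => k3 (.inr ⟨y', k, k2⟩)) ?_
    obtain ⟨y'', k5, k6⟩ := e.ge ⟨y, k4, rfl⟩
    exact a.inj y' y'' (fun k => k3 (.inl (k2 ▸ k))) (k6.trans k2.symm) ▸ k5

end chain

end Vale.Agent.P277W
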