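import Vale.Agent.P277W59.Gl2
import Vale.Agent.P277W13.Plug
import Vale.Agent.P277W49.Zb
import Vale.Agent.P277W73.ConeAmp
import Vale.Agent.P277W73.Exp
import Vale.Agent.P277W83.Glc
import Vale.Agent.P277W83.Img
import Vale.Agent.P277W83.Kc

/-!
# P277W: the rows are plugged
-/

open Vale.Agent.P277 Vale.Agent.P277Z.St Vale.Agent.P277Z

namespace Vale.Agent.P277W

theorem bas : Bas :=
  ⟨smo, P277W49.zb, P277W83.img, P277W83.surj, P277W83.thin, ord P277W49.zb P277W83.thin⟩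

theorem exp : EXP :=
  P277W73.exp_of Glc.ghRes0 Glc.ghPrin Glc.ghComp GH.fam Pj.rap Pj.prjs (Pj.F.remg C1.fts)
    P277W83.thin

theorem q1 (exd : EXD) (pic : PIC) (X Z : ℕ → CSp) (f : ∀ i, (X i).pt → (Z i).pt)
    (f' : ∀ i, (X (i + 1)).pt → (Z i).pt) (G : GPair (X 0)) (B M : ∀ i, Div (X i))
    (hG : G.IsGlc (M 0)) : ¬ Flips X Z f f' G B M := fun h =>
  main bas nrm (P277W83.glc smo P277W13.locp) P277W73.amp P277W83.kah
    (P277W83.nef P277W73.cone) pic X Z f f' G B M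
    (gl2 bas exp exd (nrm _ (h.four 0).1).1 (nrm _ G.four).1 hG) h

end Vale.Agent.P277W
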